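import Vale.Agent.P067.Exp.Trickle

/-!
# P067: spectral gaps of biregular incidence graphs
-/

namespace Vale.Agent.P067.Exp

open Finset

variable {P Q : Type*} [Fintype P] [Fintype Q]

/-- The graph of an incidence relation, on the disjoint union of both sides. -/
def incGraph (inc : P → Q → Prop) [DecidableRel inc] : P ⊕ Q → P ⊕ Q → ℝ
  | .inl x, .inr l => if inc x l then 1 else 0
  | .inr l, .inl x => if inc x l then 1 else 0
  | _, _ => 0

variable {inc : P → Q → Prop} [DecidableRel inc] {k m : ℕ}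

theorem wdeg_inl (hk : ∀ x, (univ.filter fun l => inc x l).card = k) (x : P) :
    wdeg (incGraph inc) (.inl x) = k := by
  simp [wdeg, incGraph, hk x]

theorem wdeg_inr (hm : ∀ l, (univ.filter fun x => inc x l).card = m) (l : Q) :
    wdeg (incGraph inc) (.inr l) = m := by
  simp [wdeg, incGraph, hm l]

theorem wform_incGraph (f : P ⊕ Q → ℝ) :
    wform (incGraph inc) f = 2 * ∑ l, (∑ x, if inc x l then f (.inl x) else 0) * f (.inr l) := by
  simp only [wform, Fintype.sum_sum_type, incGraph, zero_mul, Finset.sum_const_zero, zero_add,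
    add_zero, ite_mul, one_mul, Finset.sum_mul]
  rw [Finset.sum_comm, two_mul]
  congr 1
  refine Finset.sum_congr rfl fun l _ => Finset.sum_congr rfl fun x _ => ?_
  split_ifs <;> ring

/-- An operator bound on mean-zero functions of one side gives a gap of the incidence graph. -/
theorem incGraph_gap (hk : ∀ x, (univ.filter fun l => inc x l).card = k)
    (hm : ∀ l, (univ.filter fun x => inc x l).card = m) (hm0 : 0 < m) (hk0 : 0 < k) {σ : ℝ}
    (hσ : 0 ≤ σ)
    (hop : ∀ f : P → ℝ, ∑ x, f x = 0 →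
      ∑ l, (∑ x, if inc x l then f x else 0) ^ 2 ≤ σ ^ 2 * (k * m) * ∑ x, f x ^ 2) :
    HasGap (incGraph inc) σ := by
  intro f hf
  simp only [Fintype.sum_sum_type, wdeg_inl hk, wdeg_inr hm, ← Finset.mul_sum] at hf
  rw [wform_incGraph]
  simp only [Fintype.sum_sum_type, wdeg_inl hk, wdeg_inr hm, ← Finset.mul_sum]
  set a : P → ℝ := fun x => f (.inl x) with ha
  set b : Q → ℝ := fun l => f (.inr l) with hb
  have hcount : ((Fintype.card P : ℝ) * k) = Fintype.card Q * m := by
    have h1 : ∑ x : P, (univ.filter fun l => inc x l).card =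
        ∑ l : Q, (univ.filter fun x => inc x l).card := by
      simp only [Finset.card_filter]
      exact Finset.sum_comm
    simp only [hk, hm, Finset.sum_const, Finset.card_univ, smul_eq_mul] at h1
    exact_mod_cast h1
  have hkR : (0 : ℝ) < k := by exact_mod_cast hk0
  have hmR : (0 : ℝ) < m := by exact_mod_cast hm0
  set s : ℝ := (∑ x, a x) / Fintype.card P with hs
  have hsum : (Fintype.card P : ℝ) * s = ∑ x, a x := by
    rcases isEmpty_or_nonempty P with h | h
    · simp
    · rw [hs, mul_div_cancel₀ _ (by exact_mod_cast Fintype.card_ne_zero)]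
  set a₀ : P → ℝ := fun x => a x - s with ha₀
  set b₀ : Q → ℝ := fun l => b l + s with hb₀
  have hA : ∑ x, a₀ x = 0 := by
    simp [ha₀, Finset.sum_sub_distrib, hsum]
  have hB : ∑ l, b₀ l = 0 := by
    simp only [hb₀, Finset.sum_add_distrib, Finset.sum_const, Finset.card_univ, nsmul_eq_mul]
    have : (m : ℝ) * (∑ l, b l + Fintype.card Q * s) = 0 := by
      rw [mul_add]
      have e : (m : ℝ) * (Fintype.card Q * s) = k * ∑ x, a x := by
        rw [← hsum, ← mul_assoc, mul_comm (m : ℝ), ← hcount]; ring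
      rw [e]
      linarith
    exact (mul_eq_zero.1 this).resolve_left hmR.ne'
  set T : Q → ℝ := fun l => ∑ x, if inc x l then a₀ x else 0 with hT
  have hTa : ∀ l, (∑ x, if inc x l then a x else 0) = T l + m * s := by
    intro l
    have e : ∀ x, (if inc x l then a x else 0) =
        (if inc x l then a₀ x else 0) + (if inc x l then s else 0) := fun x => by
      split_ifs <;> simp [ha₀]
    simp only [e, Finset.sum_add_distrib, hT]
    congr 1
    rw [← Finset.sum_filter, Finset.sum_const, hm l, nsmul_eq_mul]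
  have hTsum : ∑ l, T l = 0 := by
    rw [hT, Finset.sum_comm]
    have e : ∀ x, (∑ l, if inc x l then a₀ x else 0) = k * a₀ x := fun x => by
      rw [← Finset.sum_filter, Finset.sum_const, hk x, nsmul_eq_mul]
    simp only [e, ← Finset.mul_sum, hA, mul_zero]
  set A2 : ℝ := ∑ x, a₀ x ^ 2 with hA2
  set B2 : ℝ := ∑ l, b₀ l ^ 2 with hB2
  have hform : ∑ l, (∑ x, if inc x l then a x else 0) * b l =
      ∑ l, T l * b₀ l - Fintype.card Q * m * s ^ 2 := by
    have e : ∀ l, (T l + m * s) * b l =
        T l * b₀ l - s * T l + m * s * b₀ l - m * s ^ 2 := fun l => by rw [hb₀]; ring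
    simp only [hTa, e, Finset.sum_sub_distrib, Finset.sum_add_distrib, ← Finset.mul_sum, hTsum,
      hB, Finset.sum_const, Finset.card_univ, nsmul_eq_mul]
    ring
  have hna : ∑ x, a x ^ 2 = A2 + Fintype.card P * s ^ 2 := by
    have e : ∀ x, a x ^ 2 = a₀ x ^ 2 + 2 * s * a₀ x + s ^ 2 := fun x => by rw [ha₀]; ring
    simp only [e, Finset.sum_add_distrib, ← Finset.mul_sum, hA, Finset.sum_const,
      Finset.card_univ, nsmul_eq_mul, hA2]
    ring
  have hnb : ∑ l, b l ^ 2 = B2 + Fintype.card Q * s ^ 2 := by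
    have e : ∀ l, b l ^ 2 = b₀ l ^ 2 - 2 * s * b₀ l + s ^ 2 := fun l => by rw [hb₀]; ring
    simp only [e, Finset.sum_add_distrib, Finset.sum_sub_distrib, ← Finset.mul_sum, hB,
      Finset.sum_const, Finset.card_univ, nsmul_eq_mul, hB2]
    ring
  have hcs : (∑ l, T l * b₀ l) ^ 2 ≤ (σ ^ 2 * (k * m) * A2) * B2 :=
    (Finset.sum_mul_sq_le_sq_mul_sq _ _ _).trans
      (mul_le_mul_of_nonneg_right (hop a₀ hA) (Finset.sum_nonneg fun l _ => sq_nonneg _))
  have hA0 : 0 ≤ A2 := Finset.sum_nonneg fun x _ => sq_nonneg _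
  have hB0 : 0 ≤ B2 := Finset.sum_nonneg fun x _ => sq_nonneg _
  have hmain : 2 * ∑ l, T l * b₀ l ≤ σ * (k * A2 + m * B2) := by
    refine (abs_le_of_sq_le_sq' ?_ (by positivity)).2
    have h1 : (σ * (k * A2 - m * B2)) ^ 2 ≥ 0 := sq_nonneg _
    nlinarith
  rw [hform, hna, hnb]
  have hQ : 0 ≤ (Fintype.card Q : ℝ) * m * s ^ 2 := by positivity
  have hP : 0 ≤ σ * ((Fintype.card Q : ℝ) * m * s ^ 2) := mul_nonneg hσ hQ
  have hc2 : (k : ℝ) * (Fintype.card P * s ^ 2) = Fintype.card Q * m * s ^ 2 := by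
    rw [← hcount]; ring
  linear_combination hmain + 2 * hQ + 2 * hP - σ * hc2

/-- A complete bipartite graph has gap zero. -/
theorem complete_gap (hm0 : 0 < Fintype.card P) (hk0 : 0 < Fintype.card Q)
    (hall : ∀ x l, inc x l) : HasGap (incGraph inc) 0 := by
  refine incGraph_gap (k := Fintype.card Q) (m := Fintype.card P) (fun x => by simp [hall])
    (fun l => by simp [hall]) hm0 hk0 le_rfl fun f hf => ?_
  simp [hall, hf]

/-- Two points on at most one common line: the gap is the inverse root of the line size. -/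
theorem plane_gap [DecidableEq P] {β : Type*} [Fintype β] [DecidableEq β] (blk : P → β) (hk : ∀ x, (univ.filter fun l => inc x l).card = k)
    (hm : ∀ l, (univ.filter fun x => inc x l).card = m) (hk0 : 0 < k) (hm0 : 0 < m)
    (hpair : ∀ x y, x ≠ y → (univ.filter fun l => inc x l ∧ inc y l).card =
      if blk x = blk y then 0 else 1) :
    HasGap (incGraph inc) (Real.sqrt m)⁻¹ := by
  refine incGraph_gap hk hm hm0 hk0 (by positivity) fun f hf => ?_
  refine (pairwise_bound inc blk k hk hpair f hf).trans (le_of_eq ?_)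
  rw [inv_pow, Real.sq_sqrt (Nat.cast_nonneg m)]
  have : (m : ℝ) ≠ 0 := by exact_mod_cast hm0.ne'
  field_simp

end Vale.Agent.P067.Exp
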