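import Vale.Agent.P067.Exp.Trickle
import Vale.Agent.P067.LG.Defs

/-!
# P067: gaps of all links from the gaps of the top links, and mixing
-/

namespace Vale.Agent.P067.Exp

open Finset LG

variable {V : Type*} [Fintype V] [DecidableEq V] {F : Finset (Finset V)} {N : ℕ}

/-- The weighted graph of the link of `τ`. -/
def linkW (F : Finset (Finset V)) (τ : Finset V) (u v : V) : ℝ :=
  if u ≠ v ∧ u ∉ τ ∧ v ∉ τ then (cnt F (insert u (insert v τ)) : ℝ) else 0

/-- The link of `τ` is connected on its vertices. -/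
def LinkConn (F : Finset (Finset V)) (τ : Finset V) : Prop :=
  ∀ f : V → ℝ, (∀ u v, 0 < linkW F τ u v → f u = f v) →
    ∀ u v, u ∉ τ → v ∉ τ → 0 < cnt F (insert u τ) → 0 < cnt F (insert v τ) → f u = f v

omit [Fintype V] in
theorem linkW_comm (τ : Finset V) (u v : V) : linkW F τ u v = linkW F τ v u := by
  unfold linkW
  by_cases h : u ≠ v ∧ u ∉ τ ∧ v ∉ τ
  · rw [if_pos h, if_pos ⟨h.1.symm, h.2.2, h.2.1⟩, insert_comm]
  · rw [if_neg h, if_neg fun g => h ⟨g.1.symm, g.2.2, g.2.1⟩]

omit [Fintype V] in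
theorem linkW_nonneg (τ : Finset V) (u v : V) : 0 ≤ linkW F τ u v := by
  unfold linkW
  split_ifs <;> simp

omit [Fintype V] in
theorem linkW_of_pos {τ : Finset V} {u v : V} (h : linkW F τ u v ≠ 0) :
    u ∉ τ ∧ v ∉ τ ∧ u ≠ v ∧ 0 < cnt F (insert u (insert v τ)) := by
  unfold linkW at h
  split_ifs at h with hc
  · exact ⟨hc.2.1, hc.2.2, hc.1, Nat.pos_of_ne_zero fun h0 => h (by simp [h0])⟩
  · exact absurd rfl h

theorem cnt_sum (hN : ∀ ρ ∈ F, ρ.card = N) (σ : Finset V) :
    ∑ v, (if v ∉ σ then (cnt F (insert v σ) : ℝ) else 0) = ((N : ℝ) - σ.card) * cnt F σ := by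
  have h : ∀ v, (if v ∉ σ then (cnt F (insert v σ) : ℝ) else 0) =
      ∑ ρ ∈ F.filter (fun ρ => σ ⊆ ρ), if v ∈ ρ \ σ then (1 : ℝ) else 0 := by
    intro v
    by_cases hv : v ∈ σ
    · simp [hv]
    · rw [if_pos hv, cnt]
      simp only [mem_sdiff, hv, not_false_eq_true, and_true]
      rw [sum_boole, filter_filter]
      congr 2
      refine filter_congr fun ρ _ => ?_
      rw [insert_subset_iff]
      exact and_comm
  simp only [h]
  rw [sum_comm]
  have h2 : ∀ ρ ∈ F.filter (fun ρ => σ ⊆ ρ),
      (∑ v, if v ∈ ρ \ σ then (1 : ℝ) else 0) = (N : ℝ) - σ.card := by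
    intro ρ hρ
    obtain ⟨h1, h2⟩ := mem_filter.1 hρ
    rw [sum_boole, filter_univ_mem, card_sdiff_of_subset h2, Nat.cast_sub (card_le_card h2),
      hN ρ h1]
  rw [sum_congr rfl h2, sum_const, nsmul_eq_mul, cnt, mul_comm]

theorem wdeg_linkW (hN : ∀ ρ ∈ F, ρ.card = N) (τ : Finset V) (u : V) :
    wdeg (linkW F τ) u =
      if u ∈ τ then 0 else ((N : ℝ) - τ.card - 1) * cnt F (insert u τ) := by
  by_cases hu : u ∈ τ
  · simp [wdeg, linkW, hu]
  · rw [if_neg hu]
    have h := cnt_sum hN (insert u τ)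
    rw [card_insert_of_notMem hu, Nat.cast_add, Nat.cast_one, ← sub_sub] at h
    rw [wdeg, ← h]
    refine sum_congr rfl fun v _ => ?_
    by_cases hv : v ∈ insert u τ
    · rw [if_neg (not_not.2 hv), linkW, if_neg]
      rw [mem_insert] at hv
      rintro ⟨h1, -, h3⟩
      rcases hv with rfl | hv
      · exact h1 rfl
      · exact h3 hv
    · rw [if_pos hv, linkW, if_pos, insert_comm]
      rw [mem_insert, not_or] at hv
      exact ⟨Ne.symm hv.1, hu, hv.2⟩

omit [DecidableEq V] in
/-- Vertices without edges play no role in the gap. -/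
theorem gap_restrict {w : V → V → ℝ} {lam : ℝ} (P : V → Prop) [DecidablePred P]
    (hw : ∀ u v, w u v ≠ 0 → P u ∧ P v)
    (hg : HasGap (fun u v : {u // P u} => w u v) lam) : HasGap w lam := by
  have hsum : ∀ F' : V → ℝ, (∀ u, ¬P u → F' u = 0) → ∑ u, F' u = ∑ u : {u // P u}, F' u :=
    fun F' hF' => by
      rw [← Finset.sum_subtype (univ.filter P) (by simp) F', sum_filter]
      exact sum_congr rfl fun u _ => by
        by_cases hu : P u
        · simp [hu]
        · simp [hu, hF' u hu]
  have hrow : ∀ u, wdeg w u = ∑ v : {u // P u}, w u v := fun u =>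
    hsum _ fun v hv => by_contra fun h => hv (hw u v h).2
  have hdeg0 : ∀ u, ¬P u → wdeg w u = 0 := fun u hu =>
    sum_eq_zero fun v _ => by_contra fun h => hu (hw u v h).1
  intro f hf
  rw [hsum _ fun u hu => by rw [hdeg0 u hu, zero_mul]] at hf
  rw [hsum (fun v => wdeg w v * f v ^ 2) fun u hu => by rw [hdeg0 u hu, zero_mul]]
  have hform : wform w f = ∑ u : {u // P u}, ∑ v : {u // P u}, w u v * f u * f v := by
    rw [wform, hsum _ fun u hu => sum_eq_zero fun v _ => by
      rw [show w u v = 0 from by_contra fun h => hu (hw u v h).1, zero_mul, zero_mul]]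
    refine sum_congr rfl fun u _ => hsum _ fun v hv => ?_
    rw [show w u v = 0 from by_contra fun h => hv (hw u v h).2, zero_mul, zero_mul]
  rw [hform]
  simp only [hrow] at hf ⊢
  exact hg (fun u => f u) hf

omit [DecidableEq V] in
theorem gap_to_sub {w : V → V → ℝ} {lam : ℝ} (P : V → Prop) [DecidablePred P]
    (hw : ∀ u v, w u v ≠ 0 → P u ∧ P v) (hg : HasGap w lam) :
    HasGap (fun u v : {u // P u} => w u v) lam := by
  intro f hf
  set g : V → ℝ := fun x => if h : P x then f ⟨x, h⟩ else 0 with hgdef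
  have hgsub : ∀ u : {u // P u}, g u = f u := fun u => by simp [hgdef, u.2]
  have hsum : ∀ F' : V → ℝ, (∀ u, ¬P u → F' u = 0) → ∑ u, F' u = ∑ u : {u // P u}, F' u :=
    fun F' hF' => by
      rw [← Finset.sum_subtype (univ.filter P) (by simp) F', sum_filter]
      exact sum_congr rfl fun u _ => by
        by_cases hu : P u
        · simp [hu]
        · simp [hu, hF' u hu]
  have hrow : ∀ u : {u // P u}, wdeg w u = wdeg (fun u v : {u // P u} => w u v) u := fun u =>
    hsum _ fun v hv => by_contra fun h => hv (hw u v h).2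
  have hdeg0 : ∀ u, ¬P u → wdeg w u = 0 := fun u hu =>
    sum_eq_zero fun v _ => by_contra fun h => hu (hw u v h).1
  have h0 : ∑ u, wdeg w u * g u = 0 := by
    rw [hsum _ fun u hu => by rw [hdeg0 u hu, zero_mul]]
    simpa only [hrow, hgsub] using hf
  have h := hg g h0
  rw [hsum (fun v => wdeg w v * g v ^ 2) fun u hu => by rw [hdeg0 u hu, zero_mul]] at h
  have hform : wform w g = ∑ u : {u // P u}, ∑ v : {u // P u}, w u v * g u * g v := by
    rw [wform, hsum _ fun u hu => sum_eq_zero fun v _ => by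
      rw [show w u v = 0 from by_contra fun h => hu (hw u v h).1, zero_mul, zero_mul]]
    refine sum_congr rfl fun u _ => hsum _ fun v hv => ?_
    rw [show w u v = 0 from by_contra fun h => hv (hw u v h).2, zero_mul, zero_mul]
  rw [hform] at h
  simpa only [hrow, hgsub, wform] using h

theorem link_descent (hN : ∀ ρ ∈ F, ρ.card = N) {τ : Finset V} (ht : τ.card + 3 ≤ N) {lam : ℝ}
    (hlam : lam < 1)
    (hlink : ∀ v, v ∉ τ → 0 < cnt F (insert v τ) → HasGap (linkW F (insert v τ)) lam)
    (hconn : LinkConn F τ) : HasGap (linkW F τ) (lam / (1 - lam)) := by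
  classical
  refine gap_restrict (fun u => u ∉ τ ∧ 0 < cnt F (insert u τ)) (fun u v h => ?_) ?_
  · obtain ⟨hu, hv, -, hc⟩ := linkW_of_pos h
    have hsub : ∀ x ∈ ({u, v} : Finset V), insert x τ ⊆ insert u (insert v τ) := fun x hx => by
      refine insert_subset_iff.2 ⟨?_, (subset_insert _ _).trans (subset_insert _ _)⟩
      simp only [mem_insert, mem_singleton] at hx ⊢
      tauto
    have hmono : ∀ x ∈ ({u, v} : Finset V), 0 < cnt F (insert x τ) := fun x hx =>
      hc.trans_le (card_le_card (monotone_filter_right F fun _ _ hρ => (hsub x hx).trans hρ))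
    exact ⟨⟨hu, hmono u (by simp)⟩, hv, hmono v (by simp)⟩
  set c : ℝ := (N : ℝ) - τ.card - 2 with hc
  have hNR : ((τ.card : ℝ) + 3) ≤ N := by exact_mod_cast ht
  have hc0 : 0 < c := by rw [hc]; linarith
  set W : {u // u ∉ τ ∧ 0 < cnt F (insert u τ)} → {u // u ∉ τ ∧ 0 < cnt F (insert u τ)} → ℝ :=
    fun u v => c * linkW F τ u v with hW
  have hsub : ∀ (g : V → ℝ), (∀ v, v ∉ τ → cnt F (insert v τ) = 0 → g v = 0) →
      (∀ v ∈ τ, g v = 0) →
      ∑ v, g v = ∑ v : {u // u ∉ τ ∧ 0 < cnt F (insert u τ)}, g v := by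
    intro g h1 h2
    rw [← Finset.sum_subtype (univ.filter fun u => u ∉ τ ∧ 0 < cnt F (insert u τ)) (by simp) g,
      sum_filter]
    refine sum_congr rfl fun v _ => ?_
    by_cases hv : v ∈ τ
    · simp [hv, h2 v hv]
    · by_cases h0 : cnt F (insert v τ) = 0
      · simp [hv, h0, h1 v hv h0]
      · simp [hv, Nat.pos_of_ne_zero h0]
  have hz : ∀ (a v : V), v ∉ τ → cnt F (insert v τ) = 0 → linkW F τ a v = 0 := by
    intro a v hv h0
    by_contra h
    obtain ⟨-, -, -, hpos⟩ := linkW_of_pos h
    have : cnt F (insert a (insert v τ)) ≤ cnt F (insert v τ) :=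
      card_le_card (monotone_filter_right F fun _ _ hρ => (subset_insert _ _).trans hρ)
    omega
  have hdegW : ∀ u, wdeg W u = c * ((c + 1) * cnt F (insert u.1 τ)) := by
    intro u
    have h := wdeg_linkW hN τ u.1
    rw [if_neg u.2.1, wdeg, hsub _ (fun v hv h0 => hz u v hv h0)
      (fun v hv => by simp [linkW, hv])] at h
    rw [wdeg, hW, ← Finset.mul_sum, h, hc]
    ring
  have hgap : HasGap W (lam / (1 - lam)) := by
    refine trickle (V := {u // u ∉ τ ∧ 0 < cnt F (insert u τ)})
      (fun v u t => linkW F (insert v.1 τ) u t) W lam (fun v u t => linkW_nonneg _ _ _)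
      (fun v u t => ?_) (fun v u t => linkW_comm _ _ _) (fun u t => ?_) (fun v => ?_) hlam
      (fun v => ?_) (fun f hf => ?_)
    · have key : ∀ a b : {u // u ∉ τ ∧ 0 < cnt F (insert u τ)},
          linkW F (insert a.1 τ) b t = if b.1 ≠ t.1 ∧ a.1 ≠ b.1 ∧ a.1 ≠ t.1 then
            (cnt F (insert a.1 (insert b.1 (insert t.1 τ))) : ℝ) else 0 := by
        intro a b
        unfold linkW
        by_cases h : b.1 ≠ t.1 ∧ a.1 ≠ b.1 ∧ a.1 ≠ t.1
        · rw [if_pos h, if_pos ⟨h.1, by simp [b.2.1, Ne.symm h.2.1], by simp [t.2.1, Ne.symm h.2.2]⟩,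
            insert_comm t.1 a.1, insert_comm b.1 a.1]
        · rw [if_neg h, if_neg]
          intro h'
          simp only [mem_insert, not_or] at h'
          exact h ⟨h'.1, Ne.symm h'.2.1.1, Ne.symm h'.2.2.1⟩
      rw [key v u, key u v]
      by_cases h : u.1 ≠ t.1 ∧ v.1 ≠ u.1 ∧ v.1 ≠ t.1
      · rw [if_pos h, if_pos ⟨h.2.2, h.2.1.symm, h.1⟩, insert_comm]
      · rw [if_neg h, if_neg fun h' => h ⟨h'.2.2, h'.2.1.symm, h'.1⟩]
    · rw [hW]
      simp only
      by_cases hut : u.1 = t.1
      · simp [linkW, hut]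
      · have h := cnt_sum hN (insert u.1 (insert t.1 τ))
        rw [card_insert_of_notMem (by simp [hut, u.2.1]), card_insert_of_notMem t.2.1] at h
        push_cast at h
        rw [linkW, if_pos ⟨hut, u.2.1, t.2.1⟩, hc,
          show ((N : ℝ) - τ.card - 2) = N - (τ.card + 1 + 1) by ring, ← h]
        rw [hsub _ ?_ ?_]
        · refine sum_congr rfl fun v _ => ?_
          unfold linkW
          by_cases hv : v.1 ∈ insert u.1 (insert t.1 τ)
          · rw [if_neg (not_not.2 hv), if_neg]
            intro h'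
            simp only [mem_insert, not_or] at h' hv
            rcases hv with hv | hv | hv
            · exact h'.2.1.1 hv.symm
            · exact h'.2.2.1 hv.symm
            · exact v.2.1 hv
          · have hv' := hv
            simp only [mem_insert, not_or] at hv'
            rw [if_pos hv, if_pos ⟨hut, by simp [Ne.symm hv'.1, u.2.1],
              by simp [Ne.symm hv'.2.1, t.2.1]⟩, insert_comm t.1 v.1, insert_comm u.1 v.1]
        · intro v hv h0
          by_cases hm : v ∈ insert u.1 (insert t.1 τ)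
          · rw [if_neg (not_not.2 hm)]
          · rw [if_pos hm]
            have : cnt F (insert v (insert u.1 (insert t.1 τ))) ≤ cnt F (insert v τ) :=
              card_le_card (monotone_filter_right F fun _ _ hρ => (insert_subset_insert _
                ((subset_insert _ _).trans (subset_insert _ _))).trans hρ)
            rw [h0, Nat.le_zero] at this
            exact_mod_cast this
        · intro v hv
          simp [hv]
    · rw [hdegW]
      have : (0 : ℝ) < cnt F (insert v.1 τ) := by exact_mod_cast v.2.2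
      positivity
    · refine gap_to_sub (fun u => u ∉ τ ∧ 0 < cnt F (insert u τ)) (fun x y hxy => ?_)
        (hlink v.1 v.2.1 v.2.2)
      obtain ⟨hx, hy, -, hpos⟩ := linkW_of_pos hxy
      have hmono : ∀ z ∈ ({x, y} : Finset V), 0 < cnt F (insert z τ) := fun z hz' => by
        refine hpos.trans_le (card_le_card (monotone_filter_right F fun _ _ hρ => ?_))
        refine (insert_subset_iff.2 ⟨?_, ?_⟩ : insert z τ ⊆ insert x (insert y (insert v.1 τ))).trans hρ
        · simp only [mem_insert, mem_singleton] at hz' ⊢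
          tauto
        · exact ((subset_insert _ _).trans (subset_insert _ _)).trans (subset_insert _ _)
      exact ⟨⟨fun h => hx (mem_insert_of_mem h), hmono x (by simp)⟩,
        fun h => hy (mem_insert_of_mem h), hmono y (by simp)⟩
    · intro u v
      have h := hconn (fun x => if h : x ∉ τ ∧ 0 < cnt F (insert x τ) then f ⟨x, h⟩ else 0)
        (fun a b hab => by
          obtain ⟨ha, hb, -, -⟩ := linkW_of_pos hab.ne'
          by_cases ha0 : 0 < cnt F (insert a τ)
          · by_cases hb0 : 0 < cnt F (insert b τ)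
            · rw [dif_pos ⟨ha, ha0⟩, dif_pos ⟨hb, hb0⟩]
              exact hf _ _ (by rw [hW]; exact mul_pos hc0 hab)
            · exact absurd (hz a b hb (by omega)) hab.ne'
          · exact absurd (by rw [linkW_comm]; exact hz b a ha (by omega)) hab.ne')
        u.1 v.1 u.2.1 v.2.1 u.2.2 v.2.2
      rwa [dif_pos u.2, dif_pos v.2] at h
  intro f hf
  have e1 : ∀ u, wdeg W u = c * wdeg (fun a b : {u // u ∉ τ ∧ 0 < cnt F (insert u τ)} =>
      linkW F τ a b) u := fun u => by simp [wdeg, hW, Finset.mul_sum]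
  have h := hgap f (by simp only [e1, mul_assoc, ← Finset.mul_sum, hf, mul_zero])
  have e2 : wform W f = c * wform (fun a b : {u // u ∉ τ ∧ 0 < cnt F (insert u τ)} =>
      linkW F τ a b) f := by simp [wform, hW, Finset.mul_sum, mul_assoc]
  simp only [e1, e2, mul_assoc, ← Finset.mul_sum] at h
  rw [mul_left_comm] at h
  exact le_of_mul_le_mul_left h hc0

end Vale.Agent.P067.Exp
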