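import Vale.Agent.P067.Exp.LinkGap

/-!
# P067: mixing in all links from the gaps of the top links
-/

namespace Vale.Agent.P067.Exp

open Finset LG

variable {V : Type*} [Fintype V] [DecidableEq V] {F : Finset (Finset V)} {N : ℕ}

theorem gap_all (hN : ∀ ρ ∈ F, ρ.card = N) {lam : ℝ} (hlam : 0 ≤ lam) (hsmall : N * lam < 1)
    (htop : ∀ τ : Finset V, 0 < cnt F τ → τ.card + 2 = N → HasGap (linkW F τ) lam)
    (hconn : ∀ τ : Finset V, 0 < cnt F τ → τ.card + 3 ≤ N → LinkConn F τ) :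
    ∀ (j : ℕ) (τ : Finset V), 0 < cnt F τ → τ.card + 2 + j = N →
      HasGap (linkW F τ) (lam / (1 - j * lam)) := by
  intro j
  induction j with
  | zero =>
    intro τ h1 h2
    simpa using htop τ h1 (by omega)
  | succ j ih =>
    intro τ h1 h2
    have hjN : ((j : ℝ) + 1) ≤ N := by exact_mod_cast (show j + 1 ≤ N by omega)
    have hjl : ((j : ℝ) + 1) * lam < 1 :=
      lt_of_le_of_lt (mul_le_mul_of_nonneg_right hjN hlam) hsmall
    have hd : 0 < 1 - (j : ℝ) * lam := by nlinarith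
    have hd' : 0 < 1 - ((j : ℝ) + 1) * lam := by linarith
    have hlt : lam / (1 - j * lam) < 1 := by rw [div_lt_one hd]; linarith
    have h := link_descent hN (τ := τ) (by omega) hlt (fun v hv hpos => ih (insert v τ) hpos (by
      rw [card_insert_of_notMem hv]; omega)) (hconn τ h1 (by omega))
    convert h using 1
    push_cast
    rw [one_sub_div hd.ne', div_div_div_cancel_right₀ hd.ne']
    ring

theorem link_edges_le (hN : ∀ ρ ∈ F, ρ.card = N) {μ : ℝ} (hμ : 0 ≤ μ) {τ : Finset V}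
    (hτ : 0 < cnt F τ) (ht : τ.card + 2 ≤ N) (hgap : HasGap (linkW F τ) μ)
    {S : Finset (Finset V)} (hS : S ⊆ LG.star F (τ.card + 1) τ) :
    mass F ((LG.star F (τ.card + 2) τ).filter fun ρ => 2 ≤ (S.filter fun σ => σ ⊆ ρ).card) ≤
      ((N : ℝ) - τ.card - 1) * mass F S *
        (mass F S / (((N : ℝ) - τ.card) * cnt F τ) + μ) := by
  classical
  set S' : Finset V := univ.filter fun u => u ∉ τ ∧ insert u τ ∈ S with hS'
  have hform : ∀ σ ∈ S, ∃ u ∈ S', insert u τ = σ := by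
    intro σ hσ
    obtain ⟨h1, h2⟩ := mem_filter.1 (hS hσ)
    obtain ⟨ρ, -, h3⟩ := mem_biUnion.1 h1
    have hc : (σ \ τ).card = 1 := by
      rw [card_sdiff_of_subset h2, (mem_powersetCard.1 h3).2]
      omega
    obtain ⟨u, hu⟩ := card_eq_one.1 hc
    have hu' : u ∈ σ \ τ := hu ▸ mem_singleton_self u
    have e : insert u τ = σ := by rw [insert_eq, ← hu, sdiff_union_of_subset h2]
    exact ⟨u, by simp [hS', (mem_sdiff.1 hu').2, e, hσ], e⟩
  have hinj : Set.InjOn (fun u => insert u τ) S' := fun a ha b hb h => by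
    simp only [hS', coe_filter, Set.mem_setOf_eq] at ha
    simp only at h
    have h1 : a ∈ insert b τ := h ▸ mem_insert_self a τ
    exact (mem_insert.1 h1).resolve_right ha.2.1
  have himg : S'.image (fun u => insert u τ) = S := by
    ext σ
    simp only [mem_image]
    exact ⟨fun ⟨u, hu, e⟩ => e ▸ (mem_filter.1 hu).2.2, hform σ⟩
  have hM : ∑ u ∈ S', wdeg (linkW F τ) u = ((N : ℝ) - τ.card - 1) * mass F S := by
    rw [mass, ← himg, sum_image hinj, mul_sum]
    refine sum_congr rfl fun u hu => ?_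
    rw [wdeg_linkW hN, if_neg (mem_filter.1 hu).2.1]
  have hW : ∑ u, wdeg (linkW F τ) u =
      ((N : ℝ) - τ.card - 1) * (((N : ℝ) - τ.card) * cnt F τ) := by
    rw [← cnt_sum hN τ, mul_sum]
    refine sum_congr rfl fun u _ => ?_
    rw [wdeg_linkW hN]
    by_cases hu : u ∈ τ <;> simp [hu]
  have htR : ((τ.card : ℝ) + 2) ≤ N := by exact_mod_cast ht
  have hk : 0 < (N : ℝ) - τ.card - 1 := by linarith
  have hWpos : 0 < ∑ u, wdeg (linkW F τ) u := by
    rw [hW]
    have : (0 : ℝ) < cnt F τ := by exact_mod_cast hτ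
    have : 0 < (N : ℝ) - τ.card := by linarith
    positivity
  have hmix := gap_mixing (fun u v => linkW_comm τ u v) hμ hgap S' hWpos
  rw [hM, hW, mul_div_mul_left _ _ hk.ne'] at hmix
  refine le_trans ?_ hmix
  rw [← sum_product' (f := fun u v => linkW F τ u v), mass]
  set G := ((S' ×ˢ S').filter fun z => z.1 ≠ z.2) with hG
  calc ∑ ρ ∈ (LG.star F (τ.card + 2) τ).filter (fun ρ => 2 ≤ (S.filter fun σ => σ ⊆ ρ).card),
        (cnt F ρ : ℝ)
      ≤ ∑ ρ ∈ G.image (fun z => insert z.1 (insert z.2 τ)), (cnt F ρ : ℝ) := by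
        refine sum_le_sum_of_subset_of_nonneg (fun ρ hρ => ?_) fun _ _ _ => Nat.cast_nonneg _
        obtain ⟨hρ1, hρ2⟩ := mem_filter.1 hρ
        obtain ⟨σ₁, hσ₁, σ₂, hσ₂, hne⟩ := one_lt_card.1 hρ2
        obtain ⟨hs1, hr1⟩ := mem_filter.1 hσ₁
        obtain ⟨hs2, hr2⟩ := mem_filter.1 hσ₂
        obtain ⟨u, hu, rfl⟩ := hform σ₁ hs1
        obtain ⟨v, hv, rfl⟩ := hform σ₂ hs2
        have huv : u ≠ v := fun h => hne (by rw [h])
        obtain ⟨hρf, hτρ⟩ := mem_filter.1 hρ1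
        refine mem_image.2 ⟨(u, v), mem_filter.2 ⟨mem_product.2 ⟨hu, hv⟩, huv⟩, ?_⟩
        refine eq_of_subset_of_card_le (insert_subset (hr1 (mem_insert_self u τ)) hr2) ?_
        obtain ⟨ρ', -, h3⟩ := mem_biUnion.1 hρf
        rw [(mem_powersetCard.1 h3).2, card_insert_of_notMem (by simp [huv, (mem_filter.1 hu).2.1]),
          card_insert_of_notMem (mem_filter.1 hv).2.1]
    _ ≤ ∑ z ∈ G, (cnt F (insert z.1 (insert z.2 τ)) : ℝ) :=
        sum_image_le_of_nonneg fun _ _ => Nat.cast_nonneg _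
    _ = ∑ z ∈ G, linkW F τ z.1 z.2 := by
        refine sum_congr rfl fun z hz => ?_
        obtain ⟨hz1, hz2⟩ := mem_filter.1 hz
        obtain ⟨h1, h2⟩ := mem_product.1 hz1
        rw [linkW, if_pos ⟨hz2, (mem_filter.1 h1).2.1, (mem_filter.1 h2).2.1⟩]
    _ ≤ ∑ z ∈ S' ×ˢ S', linkW F τ z.1 z.2 :=
        sum_le_sum_of_subset_of_nonneg (filter_subset _ _) fun _ _ _ => linkW_nonneg _ _ _

/-- Gaps of the top links and connectedness of the links give mixing in all links. -/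
theorem mixing_of_top (hN : ∀ ρ ∈ F, ρ.card = N) {lam : ℝ} (hlam : 0 ≤ lam) (hsmall : N * lam < 1)
    (htop : ∀ τ : Finset V, 0 < cnt F τ → τ.card + 2 = N → HasGap (linkW F τ) lam)
    (hconn : ∀ τ : Finset V, 0 < cnt F τ → τ.card + 3 ≤ N → LinkConn F τ)
    {K : ℕ} (hK : K < N) : LG.Mixing F N K (lam / (1 - N * lam)) := by
  intro τ hτ htK S hS
  have hτ0 : 0 < cnt F τ := by
    obtain ⟨ρ, hρ, hs⟩ := mem_biUnion.1 hτ
    exact card_pos.2 ⟨ρ, mem_filter.2 ⟨hρ, (mem_powersetCard.1 hs).1⟩⟩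
  obtain ⟨j, hj⟩ : ∃ j, τ.card + 2 + j = N := ⟨N - τ.card - 2, by omega⟩
  have hgap := gap_all hN hlam hsmall htop hconn j τ hτ0 hj
  have hd : 0 < 1 - (N : ℝ) * lam := by linarith
  have hjN : (j : ℝ) * lam ≤ N * lam :=
    mul_le_mul_of_nonneg_right (by exact_mod_cast (show j ≤ N by omega)) hlam
  have hμ : 0 ≤ lam / (1 - j * lam) := div_nonneg hlam (by linarith)
  refine (link_edges_le hN hμ hτ0 (by omega) hgap hS).trans ?_
  have htN : (τ.card : ℝ) ≤ N := by exact_mod_cast (show τ.card ≤ N by omega)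
  have hden : 0 ≤ ((N : ℝ) - τ.card) * cnt F τ := mul_nonneg (by linarith) (Nat.cast_nonneg _)
  have hm0 : 0 ≤ mass F S := sum_nonneg fun _ _ => Nat.cast_nonneg _
  refine mul_le_mul (mul_le_mul_of_nonneg_right ?_ hm0) ?_ ?_ (by positivity)
  · have : (0 : ℝ) ≤ τ.card := Nat.cast_nonneg _
    linarith
  · exact add_le_add le_rfl (div_le_div_of_nonneg_left hlam hd (by linarith))
  · exact add_nonneg (div_nonneg hm0 hden) hμ

end Vale.Agent.P067.Exp
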