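import Mathlib

/-!
# P067: spectral gaps of weighted graphs and Oppenheim's descent
-/

namespace Vale.Agent.P067.Exp

open Finset

variable {V : Type*} [Fintype V]

/-- The degree of a vertex. -/
def wdeg (w : V → V → ℝ) (v : V) : ℝ := ∑ u, w v u

/-- The quadratic form of a weighted graph. -/
def wform (w : V → V → ℝ) (f : V → ℝ) : ℝ := ∑ u, ∑ v, w u v * f u * f v

/-- One-sided spectral gap: on functions of mean zero the form is at most `lam` times the norm. -/
def HasGap (w : V → V → ℝ) (lam : ℝ) : Prop :=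
  ∀ f : V → ℝ, ∑ v, wdeg w v * f v = 0 → wform w f ≤ lam * ∑ v, wdeg w v * f v ^ 2

theorem wform_add_smul {w : V → V → ℝ} (hw : ∀ u v, w u v = w v u) (f h : V → ℝ) (t : ℝ) :
    wform w (f + t • h) =
      wform w f + 2 * t * (∑ u, (∑ v, w u v * f v) * h u) + t ^ 2 * wform w h := by
  have h1 : ∑ u, ∑ v, w u v * f u * h v = ∑ u, (∑ v, w u v * f v) * h u := by
    rw [Finset.sum_comm]
    refine Finset.sum_congr rfl fun u _ => ?_
    rw [Finset.sum_mul]
    exact Finset.sum_congr rfl fun v _ => by rw [hw v u]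
  have h2 : ∑ u, ∑ v, w u v * h u * f v = ∑ u, (∑ v, w u v * f v) * h u := by
    refine Finset.sum_congr rfl fun u _ => ?_
    rw [Finset.sum_mul]
    exact Finset.sum_congr rfl fun v _ => by ring
  have e : ∀ u v, w u v * (f u + t * h u) * (f v + t * h v) = w u v * f u * f v +
      t * (w u v * f u * h v) + t * (w u v * h u * f v) + t ^ 2 * (w u v * h u * h v) :=
    fun u v => by ring
  simp only [wform, Pi.add_apply, Pi.smul_apply, smul_eq_mul, e, Finset.sum_add_distrib,
    ← Finset.mul_sum, h1, h2]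
  ring

theorem wform_shift {w : V → V → ℝ} (hw : ∀ u v, w u v = w v u) (f : V → ℝ) (a : ℝ) :
    wform w (fun u => f u - a) =
      wform w f - 2 * a * (∑ u, wdeg w u * f u) + a ^ 2 * ∑ u, wdeg w u := by
  have h := wform_add_smul hw f (fun _ => (1 : ℝ)) (-a)
  have e1 : f + (-a) • (fun _ => (1 : ℝ)) = fun u => f u - a := by
    funext u; simp [sub_eq_add_neg]
  have e2 : ∑ u, (∑ v, w u v * f v) * (fun _ => (1 : ℝ)) u = ∑ u, wdeg w u * f u := by
    simp only [mul_one]
    rw [Finset.sum_comm]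
    refine Finset.sum_congr rfl fun u _ => ?_
    rw [← Finset.sum_mul, wdeg]
    simp_rw [hw u]
  rw [e1, e2] at h
  rw [h]
  simp [wform, wdeg]
  ring

theorem wform_le_wnorm {w : V → V → ℝ} (hw : ∀ u v, w u v = w v u) (h0 : ∀ u v, 0 ≤ w u v)
    (f : V → ℝ) : wform w f ≤ ∑ v, wdeg w v * f v ^ 2 := by
  have e : (∑ u, ∑ v, w u v * (f u - f v) ^ 2) =
      2 * (∑ v, wdeg w v * f v ^ 2) - 2 * wform w f := by
    have h1 : ∑ u, ∑ v, w u v * f v ^ 2 = ∑ v, wdeg w v * f v ^ 2 := by
      rw [Finset.sum_comm]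
      refine Finset.sum_congr rfl fun v _ => ?_
      rw [← Finset.sum_mul, wdeg]
      simp_rw [hw v]
    have h2 : ∑ u, ∑ v, w u v * f u ^ 2 = ∑ v, wdeg w v * f v ^ 2 :=
      Finset.sum_congr rfl fun u _ => by rw [← Finset.sum_mul]; rfl
    have e' : ∀ u v, w u v * (f u - f v) ^ 2 =
        w u v * f u ^ 2 + w u v * f v ^ 2 - 2 * (w u v * f u * f v) := fun u v => by ring
    simp only [e', Finset.sum_sub_distrib, Finset.sum_add_distrib, ← Finset.mul_sum, h1, h2,
      wform]
    ring
  have hnn : 0 ≤ ∑ u, ∑ v, w u v * (f u - f v) ^ 2 :=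
    Finset.sum_nonneg fun u _ => Finset.sum_nonneg fun v _ => mul_nonneg (h0 u v) (sq_nonneg _)
  linarith

/-- A maximiser of the form among functions of mean zero and norm one. -/
theorem exists_top {w : V → V → ℝ} (hd : ∀ v, 0 < wdeg w v) {f₀ : V → ℝ}
    (hf0 : ∑ v, wdeg w v * f₀ v = 0) (hn0 : 0 < ∑ v, wdeg w v * f₀ v ^ 2) :
    ∃ f : V → ℝ, ∑ v, wdeg w v * f v = 0 ∧ ∑ v, wdeg w v * f v ^ 2 = 1 ∧
      ∀ g : V → ℝ, ∑ v, wdeg w v * g v = 0 →
        wform w g ≤ wform w f * ∑ v, wdeg w v * g v ^ 2 := by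
  set N : (V → ℝ) → ℝ := fun g => ∑ v, wdeg w v * g v ^ 2 with hN
  set S : Set (V → ℝ) := {g | ∑ v, wdeg w v * g v = 0 ∧ N g = 1} with hS
  have hscale : ∀ (g : V → ℝ), 0 < N g → ∑ v, wdeg w v * g v = 0 →
      ((Real.sqrt (N g))⁻¹ • g) ∈ S := by
    intro g hg hg0
    refine ⟨?_, ?_⟩
    · simp only [Pi.smul_apply, smul_eq_mul, mul_left_comm _ (Real.sqrt (N g))⁻¹, ← Finset.mul_sum,
        hg0, mul_zero]
    · show ∑ v, wdeg w v * ((Real.sqrt (N g))⁻¹ • g) v ^ 2 = 1
      have e : ∀ v, wdeg w v * ((Real.sqrt (N g))⁻¹ • g) v ^ 2 =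
          (Real.sqrt (N g))⁻¹ ^ 2 * (wdeg w v * g v ^ 2) := fun v => by
        simp only [Pi.smul_apply, smul_eq_mul]
        ring
      simp only [e, ← Finset.mul_sum]
      rw [inv_pow, Real.sq_sqrt hg.le]
      exact inv_mul_cancel₀ hg.ne'
  have hclosed : IsClosed S :=
    (isClosed_eq (continuous_finsetSum _ fun v _ => continuous_const.mul (continuous_apply v))
      continuous_const).inter (isClosed_eq (continuous_finsetSum _ fun v _ =>
        continuous_const.mul ((continuous_apply v).pow 2)) continuous_const)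
  have hbdd : S ⊆ Set.pi Set.univ fun v =>
      Set.Icc (-Real.sqrt (1 / wdeg w v)) (Real.sqrt (1 / wdeg w v)) := by
    rintro g ⟨-, hg⟩ v -
    have h1 : wdeg w v * g v ^ 2 ≤ 1 := hg ▸ Finset.single_le_sum
      (fun u _ => mul_nonneg (hd u).le (sq_nonneg (g u))) (Finset.mem_univ v)
    have h2 : g v ^ 2 ≤ 1 / wdeg w v := by rw [le_div_iff₀ (hd v)]; linarith
    exact abs_le.1 (Real.abs_le_sqrt h2)
  have hc : IsCompact S :=
    (isCompact_univ_pi fun v => isCompact_Icc).of_isClosed_subset hclosed hbdd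
  have hcont : Continuous (wform w) := by
    unfold wform
    fun_prop
  obtain ⟨f, hf, hmax⟩ := hc.exists_isMaxOn ⟨_, hscale f₀ hn0 hf0⟩ hcont.continuousOn
  refine ⟨f, hf.1, hf.2, fun g hg => ?_⟩
  rcases (Finset.sum_nonneg fun v _ =>
    mul_nonneg (hd v).le (sq_nonneg (g v))).eq_or_lt with h | h
  · have hz : g = 0 := funext fun v => sq_eq_zero_iff.1 ((mul_eq_zero.1
      ((Finset.sum_eq_zero_iff_of_nonneg fun u _ => mul_nonneg (hd u).le (sq_nonneg (g u))).1
        h.symm v (Finset.mem_univ v))).resolve_left (hd v).ne')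
    simp [hz, wform]
  · have h1 : wform w ((Real.sqrt (N g))⁻¹ • g) ≤ wform w f := hmax (hscale g h hg)
    have e : wform w ((Real.sqrt (N g))⁻¹ • g) = (N g)⁻¹ * wform w g := by
      have : ((Real.sqrt (N g))⁻¹) ^ 2 = (N g)⁻¹ := by rw [inv_pow, Real.sq_sqrt h.le]
      rw [← this]
      simp only [wform, Pi.smul_apply, smul_eq_mul, Finset.mul_sum]
      exact Finset.sum_congr rfl fun u _ => Finset.sum_congr rfl fun v _ => by ring
    rw [e, inv_mul_le_iff₀ h] at h1
    linarith

/-- Oppenheim's descent: gaps of all links and connectedness give a gap of the whole graph. -/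
theorem trickle (T : V → V → V → ℝ) (w : V → V → ℝ) (lam : ℝ)
    (h0 : ∀ v u t, 0 ≤ T v u t) (hs : ∀ v u t, T v u t = T u v t) (hs' : ∀ v u t, T v u t = T v t u)
    (hw : ∀ u t, w u t = ∑ v, T v u t) (hd : ∀ v, 0 < wdeg w v)
    (hlam : lam < 1) (hlink : ∀ v, HasGap (T v) lam)
    (hconn : ∀ f : V → ℝ, (∀ u v, 0 < w u v → f u = f v) → ∀ u v, f u = f v) :
    HasGap w (lam / (1 - lam)) := by
  intro f₀ hf₀
  rcases (Finset.sum_nonneg fun v _ =>
    mul_nonneg (hd v).le (sq_nonneg (f₀ v))).eq_or_lt with h | h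
  · have hz : f₀ = 0 := funext fun v => sq_eq_zero_iff.1 ((mul_eq_zero.1
      ((Finset.sum_eq_zero_iff_of_nonneg fun u _ => mul_nonneg (hd u).le (sq_nonneg (f₀ u))).1
        h.symm v (Finset.mem_univ v))).resolve_left (hd v).ne')
    simp [hz, wform]
  obtain ⟨f, hf, hn, hmax⟩ := exists_top hd hf₀ h
  set μ : ℝ := wform w f with hμ
  have hwsym : ∀ u t, w u t = w t u := fun u t => by rw [hw, hw]; simp_rw [hs' _ u t]
  have hw0 : ∀ u t, 0 ≤ w u t := fun u t => by rw [hw]; exact Finset.sum_nonneg fun v _ => h0 v u t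
  set g : V → ℝ := fun u => ∑ v, w u v * f v with hg
  have heig : ∀ u, g u = μ * (wdeg w u * f u) := by
    set r : V → ℝ := fun u => (g u - μ * (wdeg w u * f u)) / wdeg w u with hr
    have hr0 : ∑ u, wdeg w u * r u = 0 := by
      have e1 : ∀ u, wdeg w u * r u = g u - μ * (wdeg w u * f u) := fun u =>
        mul_div_cancel₀ _ (hd u).ne'
      simp only [e1, Finset.sum_sub_distrib, ← Finset.mul_sum, hf, mul_zero, sub_zero, hg]
      rw [Finset.sum_comm, ← hf]
      refine Finset.sum_congr rfl fun v _ => ?_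
      rw [← Finset.sum_mul, wdeg]
      simp_rw [hwsym v]
    set A : ℝ := ∑ u, (g u - μ * (wdeg w u * f u)) * r u with hA
    have key : ∀ t : ℝ, 0 ≤ -(2 * t * A) + t ^ 2 *
        (μ * (∑ v, wdeg w v * r v ^ 2) - wform w r) := by
      intro t
      have h1 := hmax (f + t • r) (by
        simp only [Pi.add_apply, Pi.smul_apply, smul_eq_mul, mul_add, Finset.sum_add_distrib,
          mul_left_comm _ t, ← Finset.mul_sum, hf, hr0, mul_zero, add_zero])
      rw [wform_add_smul hwsym] at h1
      have e2 : ∀ v, wdeg w v * (f + t • r) v ^ 2 = wdeg w v * f v ^ 2 +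
          2 * t * (wdeg w v * f v * r v) + t ^ 2 * (wdeg w v * r v ^ 2) := fun v => by
        simp only [Pi.add_apply, Pi.smul_apply, smul_eq_mul]
        ring
      simp only [e2, Finset.sum_add_distrib, ← Finset.mul_sum, hn] at h1
      have e3 : A = (∑ u, g u * r u) - μ * ∑ u, wdeg w u * f u * r u := by
        simp only [hA, sub_mul, Finset.sum_sub_distrib, Finset.mul_sum, mul_assoc]
      rw [e3]
      simp only [hg]
      rw [← hμ] at h1
      linarith
    have hA0 : A = 0 := by
      set B := μ * (∑ v, wdeg w v * r v ^ 2) - wform w r with hB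
      by_contra hne
      have hpos : 0 < |B| + 1 := by positivity
      have h1 := key (A / (|B| + 1))
      have hsq : 0 < A ^ 2 := by positivity
      have h2 : (A / (|B| + 1)) ^ 2 * B ≤ (A / (|B| + 1)) ^ 2 * (|B| + 1) :=
        mul_le_mul_of_nonneg_left (by linarith [le_abs_self B]) (sq_nonneg _)
      have h3 : (A / (|B| + 1)) ^ 2 * (|B| + 1) = A ^ 2 / (|B| + 1) := by field_simp
      have h4 : 2 * (A / (|B| + 1)) * A = 2 * (A ^ 2 / (|B| + 1)) := by ring
      have h5 : 0 < A ^ 2 / (|B| + 1) := div_pos hsq hpos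
      linarith
    intro u
    have hnn : ∀ v, 0 ≤ (g v - μ * (wdeg w v * f v)) * r v := fun v => by
      rw [hr, ← mul_div_assoc]
      exact div_nonneg (mul_self_nonneg _) (hd v).le
    have h1 := (Finset.sum_eq_zero_iff_of_nonneg fun v _ => hnn v).1 hA0 u (Finset.mem_univ u)
    rw [hr, ← mul_div_assoc, div_eq_zero_iff, or_iff_left (hd u).ne', mul_self_eq_zero] at h1
    linarith
  have hdeg : ∀ v u, wdeg (T v) u = w v u := fun v u => by
    rw [hw, wdeg]
    exact Finset.sum_congr rfl fun t _ => by rw [hs t v u, hs' v t u, hs v u t, hs' u v t, hs' u t v]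
  have hv : ∀ v, wform (T v) f ≤ lam * (∑ u, w v u * f u ^ 2) +
      (1 - lam) * (wdeg w v * (μ * f v) ^ 2) := by
    intro v
    set a : ℝ := μ * f v with ha
    have hga : ∑ u, w v u * f u = a * wdeg w v := by
      have := heig v
      simp only [hg] at this
      rw [this, ha]
      ring
    have hmean : ∑ u, wdeg (T v) u * (f u - a) = 0 := by
      simp only [hdeg, mul_sub, Finset.sum_sub_distrib, ← Finset.sum_mul, hga]
      rw [show (∑ u, w v u) = wdeg w v from rfl]
      ring
    have h1 := hlink v _ hmean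
    have e2 : ∀ u, w v u * (f u - a) ^ 2 =
        w v u * f u ^ 2 - 2 * a * (w v u * f u) + a ^ 2 * w v u := fun u => by ring
    rw [wform_shift (hs' v)] at h1
    simp only [hdeg, e2, Finset.sum_sub_distrib, Finset.sum_add_distrib, ← Finset.mul_sum,
      hga] at h1
    rw [show (∑ u, w v u) = wdeg w v from rfl] at h1
    linarith
  have hq : wform w f = ∑ v, wform (T v) f := by
    simp only [wform, hw, Finset.sum_mul]
    rw [Finset.sum_comm]
    refine (Finset.sum_congr rfl fun u _ => Finset.sum_comm).trans ?_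
    rw [Finset.sum_comm]
    exact Finset.sum_congr rfl fun v _ => Finset.sum_comm
  have hN : ∑ v, ∑ u, w v u * f u ^ 2 = 1 := by
    rw [Finset.sum_comm, ← hn]
    refine Finset.sum_congr rfl fun u _ => ?_
    rw [← Finset.sum_mul, wdeg]
    simp_rw [hwsym u]
  have hsum := Finset.sum_le_sum (fun v (_ : v ∈ Finset.univ) => hv v)
  have e3 : ∑ v, wdeg w v * (μ * f v) ^ 2 = μ ^ 2 := by
    simp only [mul_pow, mul_left_comm _ (μ ^ 2), ← Finset.mul_sum, hn, mul_one]
  rw [← hq, Finset.sum_add_distrib, ← Finset.mul_sum, ← Finset.mul_sum, hN, e3, ← hμ] at hsum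
  have hμ1 : μ ≠ 1 := by
    intro h1
    have hconst : ∀ u v, f u = f v := by
      refine hconn f fun u v huv => ?_
      have e : (∑ u, ∑ v, w u v * (f u - f v) ^ 2) = 0 := by
        have e' : ∀ u v, w u v * (f u - f v) ^ 2 =
            w u v * f u ^ 2 + w u v * f v ^ 2 - 2 * (w u v * f u * f v) := fun u v => by ring
        have h2 : ∑ u, ∑ v, w u v * f u ^ 2 = 1 := by
          rw [← hn]
          exact Finset.sum_congr rfl fun u _ => by rw [← Finset.sum_mul]; rfl
        simp only [e', Finset.sum_sub_distrib, Finset.sum_add_distrib, ← Finset.mul_sum, h2, hN]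
        rw [show (∑ u, ∑ v, w u v * f u * f v) = μ from rfl, h1]
        norm_num
      have h2 := (Finset.sum_eq_zero_iff_of_nonneg fun a _ => Finset.sum_nonneg fun b _ =>
        mul_nonneg (hw0 a b) (sq_nonneg _)).1 e u (Finset.mem_univ u)
      have h3 := (Finset.sum_eq_zero_iff_of_nonneg fun b _ =>
        mul_nonneg (hw0 u b) (sq_nonneg _)).1 h2 v (Finset.mem_univ v)
      exact sub_eq_zero.1 (sq_eq_zero_iff.1 ((mul_eq_zero.1 h3).resolve_left huv.ne'))
    have hall : ∀ v, f v = 0 := by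
      intro v
      have h2 : (∑ u, wdeg w u) * f v = 0 := by
        rw [← hf, Finset.sum_mul]
        exact Finset.sum_congr rfl fun u _ => by rw [hconst v u]
      exact (mul_eq_zero.1 h2).resolve_left
        (Finset.sum_pos (fun u _ => hd u) ⟨v, Finset.mem_univ v⟩).ne'
    simp [hall] at hn
  have hμle : μ ≤ 1 := hn ▸ wform_le_wnorm hwsym hw0 f
  have hb : μ ≤ lam / (1 - lam) := by
    rw [le_div_iff₀ (by linarith)]
    nlinarith [lt_of_le_of_ne hμle hμ1]
  exact (hmax f₀ hf₀).trans (mul_le_mul_of_nonneg_right hb h.le)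

/-- A gap bounds the mass inside a vertex set. -/
theorem gap_mixing {w : V → V → ℝ} {lam : ℝ} (hw : ∀ u v, w u v = w v u) (hlam : 0 ≤ lam)
    (hg : HasGap w lam) [DecidableEq V] (S : Finset V) (hpos : 0 < ∑ v, wdeg w v) :
    ∑ u ∈ S, ∑ v ∈ S, w u v ≤
      (∑ v ∈ S, wdeg w v) * ((∑ v ∈ S, wdeg w v) / (∑ v, wdeg w v) + lam) := by
  set W := ∑ v, wdeg w v with hW
  set M := ∑ v ∈ S, wdeg w v with hM
  set a := M / W with ha
  set f : V → ℝ := fun v => if v ∈ S then 1 else 0 with hf
  have h1 : ∑ v, wdeg w v * f v = M := by simp [hf, hM]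
  have h2 : ∑ v, wdeg w v * (f v - a) = 0 := by
    simp only [mul_sub, Finset.sum_sub_distrib, h1, ← Finset.sum_mul, ← hW, ha]
    field_simp
    ring
  have h3 := hg _ h2
  rw [wform_shift hw, h1, ← hW] at h3
  have h4 : wform w f = ∑ u ∈ S, ∑ v ∈ S, w u v := by
    simp [wform, hf]
  have h5 : ∑ v, wdeg w v * (f v - a) ^ 2 = M - 2 * a * M + a ^ 2 * W := by
    have e : ∀ v, wdeg w v * (f v - a) ^ 2 =
        wdeg w v * f v - 2 * a * (wdeg w v * f v) + a ^ 2 * wdeg w v := fun v => by
      by_cases hv : v ∈ S <;> simp [hf, hv] <;> ring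
    simp only [e, Finset.sum_sub_distrib, Finset.sum_add_distrib, ← Finset.mul_sum, h1, ← hW]
  have h6 : a * W = M := div_mul_cancel₀ _ hpos.ne'
  rw [h4, h5] at h3
  have h7 : 0 ≤ lam * (a * M) := by
    have : 0 ≤ a * M := by rw [ha, div_mul_eq_mul_div]; exact div_nonneg (mul_self_nonneg M) hpos.le
    positivity
  have h8 : a ^ 2 * W = a * M := by rw [sq, mul_assoc, h6]
  nlinarith

/-- The incidence graph in which two left vertices have at most one common neighbour and the left
vertices sharing no neighbour form blocks: the squared form is at most the left degree. -/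
theorem pairwise_bound {P Q β : Type*} [Fintype P] [Fintype Q] [DecidableEq P] [Fintype β]
    [DecidableEq β] (inc : P → Q → Prop) [DecidableRel inc] (blk : P → β) (k : ℕ)
    (hdeg : ∀ x, (Finset.univ.filter fun l => inc x l).card = k)
    (hpair : ∀ x y, x ≠ y → (Finset.univ.filter fun l => inc x l ∧ inc y l).card =
      if blk x = blk y then 0 else 1)
    (f : P → ℝ) (hf : ∑ x, f x = 0) :
    ∑ l, (∑ x, if inc x l then f x else 0) ^ 2 ≤ k * ∑ x, f x ^ 2 := by
  have h1 : ∑ l, (∑ x, if inc x l then f x else 0) ^ 2 =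
      ∑ x, ∑ y, ((Finset.univ.filter fun l => inc x l ∧ inc y l).card : ℝ) * (f x * f y) := by
    simp only [sq, Finset.sum_mul_sum]
    rw [Finset.sum_comm]
    refine Finset.sum_congr rfl fun x _ => ?_
    rw [Finset.sum_comm]
    refine Finset.sum_congr rfl fun y _ => ?_
    rw [← Finset.sum_boole, Finset.sum_mul]
    exact Finset.sum_congr rfl fun l _ => by by_cases hx : inc x l <;> by_cases hy : inc y l <;> simp [hx, hy]
  have h2 : ∀ x y, ((Finset.univ.filter fun l => inc x l ∧ inc y l).card : ℝ) * (f x * f y) =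
      f x * f y - (if blk x = blk y then f x * f y else 0) + (if x = y then (k : ℝ) * f x ^ 2 else 0) := by
    intro x y
    by_cases hxy : x = y
    · subst hxy
      simp only [and_self, hdeg, if_true]
      ring
    · rw [hpair x y hxy, if_neg hxy]
      split_ifs <;> simp
  have h3 : ∀ x, ∑ y, f x * f y = 0 := fun x => by rw [← Finset.mul_sum, hf, mul_zero]
  have h4 : 0 ≤ ∑ x, ∑ y, (if blk x = blk y then f x * f y else 0) := by
    have e : ∀ x y, (if blk x = blk y then f x * f y else 0) =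
        ∑ z, (if blk x = z then f x else 0) * (if blk y = z then f y else 0) := by
      intro x y
      rw [Finset.sum_eq_single (blk x)]
      · by_cases hb : blk x = blk y <;> simp [hb, Ne.symm]
      · intro z _ hz; simp [Ne.symm hz]
      · simp
    simp only [e]
    rw [Finset.sum_congr rfl fun x _ => Finset.sum_comm, Finset.sum_comm]
    simp only [← Finset.mul_sum, ← Finset.sum_mul]
    exact Finset.sum_nonneg fun z _ => mul_self_nonneg _
  rw [h1]
  simp only [h2, Finset.sum_add_distrib, Finset.sum_sub_distrib, h3, Finset.sum_const_zero,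
    Finset.sum_ite_eq, Finset.mem_univ, if_true, ← Finset.mul_sum]
  linarith

end Vale.Agent.P067.Exp
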